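/-
Row 210 (S0432), layer HL (Hopf-Lax), architect helper15.   File 1: elementary facts (HL1, HL4, HL5).
`Q_s u (y) = hopfLax s u y = inf_z u z + d(z,y)^2/(2s)` for `s > 0`, `= u y` for `s ≤ 0`.
Everything for `u` Lipschitz with constant `L` on an arbitrary metric space (boundedness is not needed:
`u z + d^2/(2s) ≥ u y - L d + d^2/(2s) ≥ u y - L^2 s/2`).
-/
import Claimed.Agent.R210.Defs

set_option autoImplicit false

open Claims.C0366 Claims.C0366.WeakHessian Claimed.Agent.R210.Defs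
open Set Filter MeasureTheory
open scoped ENNReal NNReal Topology

namespace Claimed.Agent.R210.HL.Basic

variable {X : Type*} [MetricSpace X]

theorem hl_of_pos {s : ℝ} (hs : 0 < s) (u : X → ℝ) (y : X) :
    hopfLax s u y = ⨅ z : X, (u z + dist z y ^ 2 / (2 * s)) := if_pos hs

theorem hl_of_nonpos {s : ℝ} (hs : s ≤ 0) (u : X → ℝ) (y : X) : hopfLax s u y = u y :=
  if_neg (not_lt.mpr hs)

/-- (aux) the Lipschitz bound, one sided -/
theorem hl_lip_le {L : ℝ≥0} {u : X → ℝ} (hu : LipschitzWith L u) (y z : X) :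
    u y ≤ u z + (L : ℝ) * dist z y := by
  have h := hu.dist_le_mul z y
  rw [Real.dist_eq] at h
  have h2 := neg_abs_le (u z - u y)
  linarith

/-- every competitor is `≥ u y - L^2 s/2`  (`L d ≤ d^2/(2s) + L^2 s/2`) -/
theorem hl_lower {L : ℝ≥0} {u : X → ℝ} (hu : LipschitzWith L u) {s : ℝ} (hs : 0 < s) (y z : X) :
    u y - (L : ℝ) ^ 2 * s / 2 ≤ u z + dist z y ^ 2 / (2 * s) := by
  have h := hl_lip_le hu y z
  have key : (L : ℝ) * dist z y ≤ dist z y ^ 2 / (2 * s) + (L : ℝ) ^ 2 * s / 2 := by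
    have e : dist z y ^ 2 / (2 * s) + (L : ℝ) ^ 2 * s / 2 - (L : ℝ) * dist z y
        = (dist z y - (L : ℝ) * s) ^ 2 / (2 * s) := by
      field_simp
      ring
    have : 0 ≤ (dist z y - (L : ℝ) * s) ^ 2 / (2 * s) := by positivity
    linarith
  linarith

theorem hl_bddBelow {L : ℝ≥0} {u : X → ℝ} (hu : LipschitzWith L u) {s : ℝ} (hs : 0 < s) (y : X) :
    BddBelow (range fun z : X => u z + dist z y ^ 2 / (2 * s)) :=
  ⟨u y - (L : ℝ) ^ 2 * s / 2, by rintro _ ⟨z, rfl⟩; exact hl_lower hu hs y z⟩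

/-- `Q_s u y ≤` every competitor -/
theorem hl_le {L : ℝ≥0} {u : X → ℝ} (hu : LipschitzWith L u) {s : ℝ} (hs : 0 < s) (y z : X) :
    hopfLax s u y ≤ u z + dist z y ^ 2 / (2 * s) := by
  rw [hl_of_pos hs]
  exact ciInf_le (hl_bddBelow hu hs y) z

theorem hl_le_self {L : ℝ≥0} {u : X → ℝ} (hu : LipschitzWith L u) (s : ℝ) (y : X) :
    hopfLax s u y ≤ u y := by
  rcases lt_or_ge 0 s with hs | hs
  · have h := hl_le hu hs y y
    simpa using h
  · exact (hl_of_nonpos hs u y).le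

/-- a lower bound of all competitors is a lower bound of `Q_s u y` -/
theorem hl_ge_of_forall_comp {u : X → ℝ} {s : ℝ} (hs : 0 < s) (y : X) {c : ℝ}
    (hc : ∀ z, c ≤ u z + dist z y ^ 2 / (2 * s)) : c ≤ hopfLax s u y := by
  rw [hl_of_pos hs]
  have : Nonempty X := ⟨y⟩
  exact le_ciInf hc

theorem hl_ge_of_forall {u : X → ℝ} {c : ℝ} (hc : ∀ z, c ≤ u z) (s : ℝ) (y : X) :
    c ≤ hopfLax s u y := by
  rcases lt_or_ge 0 s with hs | hs
  · refine hl_ge_of_forall_comp hs y fun z => ?_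
    have h1 : 0 ≤ dist z y ^ 2 / (2 * s) := by positivity
    have h2 := hc z
    linarith
  · rw [hl_of_nonpos hs]
    exact hc y

/-- almost minimisers exist -/
theorem hl_exists_lt {u : X → ℝ} {s : ℝ} (hs : 0 < s) (y : X) {ε : ℝ} (hε : 0 < ε) :
    ∃ z, u z + dist z y ^ 2 / (2 * s) < hopfLax s u y + ε := by
  rw [hl_of_pos hs]
  have : Nonempty X := ⟨y⟩
  exact exists_lt_of_ciInf_lt (lt_add_of_pos_right _ hε)

/-- a competitor outside of the ball of radius `2 s L` is worse than `y` itself -/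
theorem hl_far {L : ℝ≥0} {u : X → ℝ} (hu : LipschitzWith L u) {s : ℝ} (hs : 0 < s) (y z : X)
    (hz : 2 * s * L < dist z y) : u y < u z + dist z y ^ 2 / (2 * s) := by
  have h := hl_lip_le hu y z
  have hL : (0 : ℝ) ≤ L := L.coe_nonneg
  have hd : 0 < dist z y := lt_of_le_of_lt (by positivity) hz
  have key : (L : ℝ) * dist z y < dist z y ^ 2 / (2 * s) := by
    rw [lt_div_iff₀ (by positivity)]
    nlinarith
  linarith

/-- almost minimisers exist in the closed ball of radius `2 s L` -/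
theorem hl_exists_near {L : ℝ≥0} {u : X → ℝ} (hu : LipschitzWith L u) {s : ℝ} (hs : 0 < s) (y : X)
    {ε : ℝ} (hε : 0 < ε) :
    ∃ z, dist z y ≤ 2 * s * L ∧ u z + dist z y ^ 2 / (2 * s) < hopfLax s u y + ε := by
  obtain ⟨z, hz⟩ := hl_exists_lt (u := u) hs y hε
  have hL : (0 : ℝ) ≤ L := L.coe_nonneg
  rcases le_or_gt (dist z y) (2 * s * L) with h | h
  · exact ⟨z, h, hz⟩
  · refine ⟨y, by rw [dist_self]; positivity, ?_⟩
    have h2 := hl_far hu hs y z h
    simp only [dist_self]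
    have e : u y + (0 : ℝ) ^ 2 / (2 * s) = u y := by simp
    rw [e]
    linarith

/-- antitone in time -/
theorem hl_anti {L : ℝ≥0} {u : X → ℝ} (hu : LipschitzWith L u) {s s' : ℝ} (h : s ≤ s') (y : X) :
    hopfLax s' u y ≤ hopfLax s u y := by
  rcases le_or_gt s' 0 with hs' | hs'
  · rw [hl_of_nonpos hs', hl_of_nonpos (h.trans hs')]
  · rcases le_or_gt s 0 with hs | hs
    · rw [hl_of_nonpos hs]
      exact hl_le_self hu s' y
    · refine hl_ge_of_forall_comp hs y (fun z => (hl_le hu hs' y z).trans ?_)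
      have h1 : dist z y ^ 2 / (2 * s') ≤ dist z y ^ 2 / (2 * s) :=
        div_le_div_of_nonneg_left (sq_nonneg _) (by positivity) (by linarith)
      linarith

/-- monotone in `u` -/
theorem hl_mono {L : ℝ≥0} {u v : X → ℝ} (hu : LipschitzWith L u) (huv : ∀ z, u z ≤ v z) (s : ℝ) (y : X) :
    hopfLax s u y ≤ hopfLax s v y := by
  rcases le_or_gt s 0 with hs | hs
  · rw [hl_of_nonpos hs, hl_of_nonpos hs]
    exact huv y
  · refine hl_ge_of_forall_comp hs y (fun z => (hl_le hu hs y z).trans ?_)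
    have := huv z
    linarith

/-- one sided space estimate, `s > 0`.
Let `z` be an `ε`-minimiser for `y`, `r = d(z,y)`, `d = d(y,y')`.  Competitors `z` and `y'` for `y'` give
`Q y' - Q y - ε ≤ min ((2 r d + d^2)/(2s)) (L (r + d) - r^2/(2s))`.
If `r + d/2 ≤ 2 L s` the first is `≤ 2 L d`.  Otherwise the second is `L d + r (2 L s - r)/(2s)`, and either `r ≥ 2 L s`
(then `≤ L d`) or `0 < 2 L s - r < d/2`, `r < 2 L s` (then `≤ L d + L d/2`). -/
theorem hl_space_aux {L : ℝ≥0} {u : X → ℝ} (hu : LipschitzWith L u) {s : ℝ} (hs : 0 < s) (y y' : X) :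
    hopfLax s u y' ≤ hopfLax s u y + 2 * L * dist y y' := by
  refine le_of_forall_pos_le_add fun ε hε => ?_
  obtain ⟨z, hz⟩ := hl_exists_lt (u := u) hs y hε
  have h1 := hl_le hu hs y' z
  have h2 := hl_le hu hs y' y'
  have h3 : u y' ≤ u z + L * dist y' z := by
    have := hu.dist_le_mul y' z
    rw [Real.dist_eq] at this
    linarith [le_abs_self (u y' - u z)]
  have hL : (0 : ℝ) ≤ L := L.2
  have hr : 0 ≤ dist z y := dist_nonneg
  have hd : 0 ≤ dist y y' := dist_nonneg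
  have ht : dist z y' ≤ dist z y + dist y y' := dist_triangle _ _ _
  have ht' : dist y' z ≤ dist z y + dist y y' := by rw [dist_comm y' z]; exact ht
  have hzy' : 0 ≤ dist z y' := dist_nonneg
  rw [dist_self] at h2
  set r := dist z y with hrdef
  set d := dist y y' with hddef
  have h2s : 0 < 2 * s := by positivity
  by_cases hc : r + d / 2 ≤ 2 * L * s
  · have hsq : dist z y' ^ 2 ≤ (r + d) ^ 2 := by
      apply pow_le_pow_left₀ hzy' ht
    have hA : dist z y' ^ 2 / (2 * s) ≤ r ^ 2 / (2 * s) + 2 * L * d := by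
      rw [div_add' _ _ _ h2s.ne', div_le_div_iff_of_pos_right h2s]
      nlinarith
    linarith
  · push Not at hc
    have hB : (L : ℝ) * (r + d) ≤ r ^ 2 / (2 * s) + 2 * L * d := by
      rw [div_add' _ _ _ h2s.ne', le_div_iff₀ h2s]
      by_cases hc2 : 2 * L * s ≤ r
      · nlinarith [mul_nonneg hL hd, mul_nonneg (mul_nonneg hL hd) hs.le]
      · push Not at hc2
        have e1 : 2 * L * s - r ≤ d / 2 := by linarith
        have e2 : r * (2 * L * s - r) ≤ (2 * L * s) * (d / 2) := by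
          apply mul_le_mul hc2.le e1 (by linarith) (by positivity)
        nlinarith [mul_nonneg hL hd, mul_nonneg (mul_nonneg hL hd) hs.le]
    have h4 : (L : ℝ) * dist y' z ≤ L * (r + d) := mul_le_mul_of_nonneg_left ht' hL
    have h5 : ((0 : ℝ) ^ 2 / (2 * s)) = 0 := by simp
    linarith

/-- `Q_s u` is `2L`-Lipschitz -/
theorem hl_lipschitz {L : ℝ≥0} {u : X → ℝ} (hu : LipschitzWith L u) (s : ℝ) :
    LipschitzWith (2 * L) (hopfLax s u) := by
  rcases lt_or_ge 0 s with hs | hs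
  · refine LipschitzWith.of_le_add_mul _ fun x y => ?_
    have := hl_space_aux hu hs y x
    rw [dist_comm y x] at this
    simpa using this
  · have : hopfLax s u = u := funext fun y => hl_of_nonpos hs u y
    rw [this]
    refine hu.weaken ?_
    calc L = 1 * L := (one_mul L).symm
      _ ≤ 2 * L := by gcongr; norm_num

/-- one sided time estimate, `0 < s < s'`.
Let `z` be an `ε`-minimiser for `(y,s')`, `r = d(z,y)`.  Competitors `z` and `y` for `(y,s)` give
`Q_s - Q_s' - ε ≤ min (r^2 (s'-s)/(2 s s')) (L r - r^2/(2s'))`.  With `a = r/(2L)` (`L > 0`; `L = 0` is trivial):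
`min (a^2 (s'-s)/(s s')) (a - a^2/s') ≤ s' - s`: if `a^2 ≤ s s'` the first; else if `a ≤ s'`:
`a s' - a^2 ≤ s'^2 - a^2 ≤ s'^2 - s s'`; else the second is negative. -/
theorem hl_time_aux {L : ℝ≥0} {u : X → ℝ} (hu : LipschitzWith L u) {s s' : ℝ} (hs : 0 < s) (h : s ≤ s') (y : X) :
    hopfLax s u y ≤ hopfLax s' u y + 2 * (L : ℝ) ^ 2 * (s' - s) := by
  refine le_of_forall_pos_le_add fun ε hε => ?_
  have hs' : 0 < s' := lt_of_lt_of_le hs h
  obtain ⟨z, hz⟩ := hl_exists_lt (u := u) hs' y hε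
  have hr0 : 0 ≤ dist z y := dist_nonneg
  have h1 : hopfLax s u y ≤ u z + dist z y ^ 2 / (2 * s) := hl_le hu hs y z
  have h2 : hopfLax s u y ≤ u y := hl_le_self hu s y
  have h3 : u y - u z ≤ L * dist z y := by
    have h4 := hu.dist_le_mul y z
    rw [Real.dist_eq, dist_comm y z] at h4
    exact (le_abs_self _).trans h4
  generalize dist z y = r at *
  have hL : 0 ≤ (L : ℝ) := L.coe_nonneg
  have hd : 0 ≤ s' - s := sub_nonneg.mpr h
  by_cases hc : r ^ 2 ≤ 4 * (L : ℝ) ^ 2 * s * s'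
  · have h5 : r ^ 2 / (2 * s) - r ^ 2 / (2 * s') ≤ 2 * (L : ℝ) ^ 2 * (s' - s) := by
      rw [div_sub_div _ _ (by positivity) (by positivity), div_le_iff₀ (by positivity)]
      have h6 := mul_le_mul_of_nonneg_right hc hd
      nlinarith [h6]
    linarith
  · rw [not_le] at hc
    have h5 : (L : ℝ) * r - r ^ 2 / (2 * s') ≤ 2 * (L : ℝ) ^ 2 * (s' - s) := by
      have h6 : (L : ℝ) * r - r ^ 2 / (2 * s') = ((L : ℝ) * r * (2 * s') - r ^ 2) / (2 * s') := by
        field_simp
      rw [h6, div_le_iff₀ (by positivity)]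
      by_cases hr : r ≤ 2 * L * s'
      · have h7 : (2 * (L : ℝ) * s') * r ≤ (2 * (L : ℝ) * s') * (2 * L * s') :=
          mul_le_mul_of_nonneg_left hr (by positivity)
        nlinarith [h7, hc]
      · rw [not_le] at hr
        have h7 : r * (2 * (L : ℝ) * s' - r) ≤ 0 :=
          mul_nonpos_of_nonneg_of_nonpos hr0 (by linarith)
        have h8 : 0 ≤ 2 * (L : ℝ) ^ 2 * (s' - s) * (2 * s') := by positivity
        nlinarith [h7, h8]
    linarith

/-- `u y - L^2 s/2 ≤ Q_s u y` -/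
theorem hl_ge {L : ℝ≥0} {u : X → ℝ} (hu : LipschitzWith L u) {s : ℝ} (hs : 0 ≤ s) (y : X) :
    u y - (L : ℝ) ^ 2 * s / 2 ≤ hopfLax s u y := by
  rcases hs.lt_or_eq with hs' | hs'
  · exact hl_ge_of_forall_comp hs' y fun z => hl_lower hu hs' y z
  · rw [← hs', hl_of_nonpos le_rfl]
    simp

/-- Lipschitz in time, all real times -/
theorem hl_time {L : ℝ≥0} {u : X → ℝ} (hu : LipschitzWith L u) (s s' : ℝ) (y : X) :
    |hopfLax s u y - hopfLax s' u y| ≤ 2 * (L : ℝ) ^ 2 * |s - s'| := by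
  wlog h : s ≤ s' generalizing s s' with H
  · rw [abs_sub_comm, abs_sub_comm s s']
    exact H s' s (le_of_not_ge h)
  have hL2 : 0 ≤ (L : ℝ) ^ 2 := by positivity
  have h1 : hopfLax s' u y ≤ hopfLax s u y := hl_anti hu h y
  rw [abs_of_nonneg (sub_nonneg.mpr h1), abs_of_nonpos (sub_nonpos.mpr h)]
  rcases le_or_gt s' 0 with hs' | hs'
  · rw [hl_of_nonpos hs', hl_of_nonpos (h.trans hs')]
    have : 0 ≤ 2 * (L : ℝ) ^ 2 * -(s - s') := by
      have : 0 ≤ -(s - s') := by linarith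
      positivity
    linarith
  rcases le_or_gt s 0 with hs | hs
  · rw [hl_of_nonpos hs]
    have h2 := hl_ge hu hs'.le y
    nlinarith [mul_nonneg hL2 hs'.le, mul_nonneg hL2 (neg_nonneg.mpr hs)]
  · have h2 := hl_time_aux hu hs h y
    linarith

/-- `Q_s u → u` uniformly as `s → 0`  (`|Q_s u y - u y| ≤ 2 L^2 |s|` by `hl_time` with `s' = 0`; `Metric.tendstoUniformly_iff`) -/
theorem hl_tendstoUniformly {L : ℝ≥0} {u : X → ℝ} (hu : LipschitzWith L u) :
    TendstoUniformly (fun s : ℝ => hopfLax s u) u (𝓝 0) := by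
  rw [Metric.tendstoUniformly_iff]
  intro ε hε
  have hK : 0 < 2 * (L : ℝ) ^ 2 + 1 := by positivity
  have hδ : 0 < ε / (2 * (L : ℝ) ^ 2 + 1) := div_pos hε hK
  filter_upwards [Metric.ball_mem_nhds (0 : ℝ) hδ] with s hs y
  rw [Metric.mem_ball, Real.dist_eq, sub_zero, lt_div_iff₀ hK] at hs
  have h1 := hl_time hu s 0 y
  rw [hl_of_nonpos le_rfl, sub_zero] at h1
  rw [Real.dist_eq, abs_sub_comm]
  nlinarith [abs_nonneg s]

/-- joint continuity (`|Q_s u y - Q_s' u y'| ≤ 2 L^2 |s - s'| + 2 L d(y,y')`) -/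
theorem hl_continuous {L : ℝ≥0} {u : X → ℝ} (hu : LipschitzWith L u) :
    Continuous (fun p : ℝ × X => hopfLax p.1 u p.2) := by
  have hlip : LipschitzWith (2 * L ^ 2 + 2 * L) (fun p : ℝ × X => hopfLax p.1 u p.2) := by
    refine LipschitzWith.of_dist_le_mul fun p q => ?_
    have h1 := hl_time hu p.1 q.1 p.2
    have h2 := (hl_lipschitz hu q.1).dist_le_mul p.2 q.2
    have h3 : dist p.1 q.1 ≤ dist p q := by
      rw [Prod.dist_eq]; exact le_max_left _ _
    have h4 : dist p.2 q.2 ≤ dist p q := by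
      rw [Prod.dist_eq]; exact le_max_right _ _
    rw [← Real.dist_eq, ← Real.dist_eq] at h1
    have h5 : dist (hopfLax p.1 u p.2) (hopfLax q.1 u q.2)
        ≤ dist (hopfLax p.1 u p.2) (hopfLax q.1 u p.2) + dist (hopfLax q.1 u p.2) (hopfLax q.1 u q.2) :=
      dist_triangle _ _ _
    have hL : 0 ≤ (L : ℝ) := L.coe_nonneg
    have h6 : 2 * (L : ℝ) ^ 2 * dist p.1 q.1 ≤ 2 * (L : ℝ) ^ 2 * dist p q :=
      mul_le_mul_of_nonneg_left h3 (by positivity)
    have h7 : ((2 * L : ℝ≥0) : ℝ) * dist p.2 q.2 ≤ 2 * (L : ℝ) * dist p q := by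
      push_cast
      exact mul_le_mul_of_nonneg_left h4 (by positivity)
    push_cast
    linarith
  exact hlip.continuous

/-- `Q_s u = 0` far from the support of `u` -/
theorem hl_eq_zero_of_far {L : ℝ≥0} {u : X → ℝ} (hu : LipschitzWith L u) {o : X} {R : ℝ}
    (hsupp : ∀ z, R < dist z o → u z = 0) {s : ℝ} (hs : 0 ≤ s) {y : X} (hy : R + 2 * s * L < dist y o) :
    hopfLax s u y = 0 := by
  have hL : (0 : ℝ) ≤ L := L.coe_nonneg
  have hsL : 0 ≤ 2 * s * L := by positivity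
  have huy : u y = 0 := hsupp y (by linarith)
  rcases hs.eq_or_lt with hs0 | hs0
  · rw [hl_of_nonpos hs0.ge]
    exact huy
  · refine le_antisymm ((hl_le_self hu s y).trans huy.le) (hl_ge_of_forall_comp hs0 y (fun z => ?_))
    rcases le_or_gt (dist z y) (2 * s * L) with hz | hz
    · have h1 : dist y o ≤ dist y z + dist z o := dist_triangle y z o
      rw [dist_comm y z] at h1
      have h2 : u z = 0 := hsupp z (by linarith)
      rw [h2]
      positivity
    · have := hl_far hu hs0 y z hz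
      linarith

end Claimed.Agent.R210.HL.Basic
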