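/-
Row 210 (S0432), layer HL (Hopf-Lax), architect helper15.   File 4: differentiability in time off a countable set.
`s ↦ s * Q_s u (y) = inf_z (s u z + d(z,y)^2/2)` is concave on `(0,∞)` (infimum of affine functions).
A concave function on an open interval is differentiable off a countable set.
-/
import Claimed.Agent.R210.HL.Basic

set_option autoImplicit false

open Claims.C0366 Claims.C0366.WeakHessian Claimed.Agent.R210.Defs
open Claimed.Agent.R210.HL.Basic
open Set Filter MeasureTheory
open scoped ENNReal NNReal Topology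

namespace Claimed.Agent.R210.HL.Concave

/-- A convex function on `(0,∞)` is differentiable off a countable set.
Mathlib (`Mathlib/Analysis/Convex/Deriv.lean`, namespace `ConvexOn`): `hasDerivWithinAt_rightDeriv_of_mem_interior`,
`hasDerivWithinAt_leftDeriv_of_mem_interior`, `leftDeriv_le_rightDeriv_of_mem_interior`, `rightDeriv_le_slope`, `slope_le_leftDeriv`.
With `l x = derivWithin p (Iio x) x`, `r x = derivWithin p (Ioi x) x`: `l x ≤ r x ≤ l y` for `0 < x < y`.
If `l x = r x` then `HasDerivAt` (`hasDerivAt_iff... ` : left and right: `HasDerivWithinAt.union`, `Iio_union_Ioi`, `hasDerivWithinAt_diff_singleton`).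
The intervals `Ioo (l x) (r x)`, `x` in the bad set, are nonempty, open, pairwise disjoint: `Set.PairwiseDisjoint.countable_of_isOpen`. -/
theorem hl_convex_countable {p : ℝ → ℝ} (hp : ConvexOn ℝ (Ioi 0) p) :
    {s : ℝ | 0 < s ∧ ¬ DifferentiableAt ℝ p s}.Countable := by
  have hint : ∀ x : ℝ, 0 < x → x ∈ interior (Ioi (0 : ℝ)) := by
    intro x hx
    rw [interior_Ioi]
    exact hx
  -- the bad set
  have hlt : ∀ x ∈ {s : ℝ | 0 < s ∧ ¬ DifferentiableAt ℝ p s},
      derivWithin p (Iio x) x < derivWithin p (Ioi x) x := by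
    rintro x ⟨hx, hnd⟩
    refine lt_of_le_of_ne (hp.leftDeriv_le_rightDeriv_of_mem_interior (hint x hx)) ?_
    intro heq
    apply hnd
    have hl := hp.hasDerivWithinAt_leftDeriv_of_mem_interior (hint x hx)
    have hr := hp.hasDerivWithinAt_rightDeriv_of_mem_interior (hint x hx)
    rw [heq] at hl
    have hu := hl.union hr
    rw [Iio_union_Ioi] at hu
    have hu' : HasDerivWithinAt p (derivWithin p (Ioi x) x) (univ \ {x}) x := by
      rwa [← compl_eq_univ_sdiff]
    rw [hasDerivWithinAt_sdiff_singleton, hasDerivWithinAt_univ] at hu'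
    exact hu'.differentiableAt
  refine Set.PairwiseDisjoint.countable_of_isOpen
    (s := fun x : ℝ => Ioo (derivWithin p (Iio x) x) (derivWithin p (Ioi x) x)) ?_
    (fun x _ => isOpen_Ioo) (fun x hx => nonempty_Ioo.2 (hlt x hx))
  -- pairwise disjoint
  have key : ∀ x y : ℝ, 0 < x → x < y →
      derivWithin p (Ioi x) x ≤ derivWithin p (Iio y) y := by
    intro x y hx hxy
    have hy : 0 < y := hx.trans hxy
    exact (hp.rightDeriv_le_slope_of_mem_interior (hint x hx) (mem_Ioi.2 hy) hxy).trans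
      (hp.slope_le_leftDeriv_of_mem_interior (mem_Ioi.2 hx) (hint y hy) hxy)
  intro x hx y hy hxy
  rcases lt_or_gt_of_ne hxy with h | h
  · refine Set.disjoint_left.2 fun z hz1 hz2 => ?_
    have := key x y hx.1 h
    exact absurd (hz1.2.trans_le this) (not_lt.2 hz2.1.le)
  · refine Set.disjoint_left.2 fun z hz1 hz2 => ?_
    have := key y x hy.1 h
    exact absurd (hz2.2.trans_le this) (not_lt.2 hz1.1.le)

theorem hl_concave_countable {p : ℝ → ℝ} (hp : ConcaveOn ℝ (Ioi 0) p) :
    {s : ℝ | 0 < s ∧ ¬ DifferentiableAt ℝ p s}.Countable := by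
  have h := hl_convex_countable (p := -p) hp.neg
  refine h.mono ?_
  rintro s ⟨hs, hnd⟩
  refine ⟨hs, fun hd => hnd ?_⟩
  have := hd.neg
  simpa using this

variable {X : Type*} [MetricSpace X]

/-- `s * Q_s u y = inf_z (s u z + d^2/2)` is concave on `(0,∞)` -/
theorem hl_concave {L : ℝ≥0} {u : X → ℝ} (hu : LipschitzWith L u) (y : X) :
    ConcaveOn ℝ (Ioi 0) (fun s : ℝ => s * hopfLax s u y) := by
  refine ⟨convex_Ioi 0, ?_⟩
  intro s1 hs1 s2 hs2 a b ha hb hab
  have hs1' : (0 : ℝ) < s1 := hs1
  have hs2' : (0 : ℝ) < s2 := hs2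
  have hs : 0 < a • s1 + b • s2 := (convex_Ioi (0 : ℝ)) hs1 hs2 ha hb hab
  simp only [smul_eq_mul] at hs ⊢
  have key : ∀ {r : ℝ}, 0 < r → ∀ z, r * hopfLax r u y ≤ r * u z + dist z y ^ 2 / 2 := by
    intro r hr z
    have h1 := mul_le_mul_of_nonneg_left (hl_le hu hr y z) hr.le
    have h2 : r * (u z + dist z y ^ 2 / (2 * r)) = r * u z + dist z y ^ 2 / 2 := by
      field_simp
    rw [h2] at h1
    exact h1
  have hc : (a * (s1 * hopfLax s1 u y) + b * (s2 * hopfLax s2 u y)) / (a * s1 + b * s2)
      ≤ hopfLax (a * s1 + b * s2) u y := by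
    apply hl_ge_of_forall_comp hs
    intro z
    rw [div_le_iff₀ hs]
    have h1 := mul_le_mul_of_nonneg_left (key hs1' z) ha
    have h2 := mul_le_mul_of_nonneg_left (key hs2' z) hb
    have h3 : (u z + dist z y ^ 2 / (2 * (a * s1 + b * s2))) * (a * s1 + b * s2)
        = (a * s1 + b * s2) * u z + dist z y ^ 2 / 2 := by
      field_simp
    rw [h3]
    have hb' : b = 1 - a := by linarith
    subst hb'
    nlinarith [h1, h2]
  rw [div_le_iff₀ hs] at hc
  linarith

/-- `s ↦ Q_s u y` is differentiable at all but countably many `s > 0` -/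
theorem hl_countable {L : ℝ≥0} {u : X → ℝ} (hu : LipschitzWith L u) (y : X) :
    {s : ℝ | 0 < s ∧ ¬ DifferentiableAt ℝ (fun r : ℝ => hopfLax r u y) s}.Countable := by
  refine (hl_concave_countable (hl_concave hu y)).mono ?_
  rintro s ⟨hs, hnd⟩
  refine ⟨hs, fun hd => hnd ?_⟩
  have h1 : DifferentiableAt ℝ (fun r : ℝ => (r * hopfLax r u y) / r) s :=
    hd.div differentiableAt_id hs.ne'
  refine h1.congr_of_eventuallyEq ?_
  filter_upwards [Ioi_mem_nhds hs] with r hr
  have hr' : (0 : ℝ) < r := hr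
  field_simp

end Claimed.Agent.R210.HL.Concave
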