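/-
Row 210 (S0432), layer HL (Hopf-Lax), architect helper15.   File 2: the frozen `localSlope` (general facts, Borel measurability: HL6, HL3).
`localSlope f x = limsup_{y → x, y ≠ x} ofReal (|f y - f x| / dist y x)`  (`= 0` at isolated points).
-/
import Claimed.Agent.R210.Defs

set_option autoImplicit false

open Claims.C0366 Claims.C0366.WeakHessian Claimed.Agent.R210.Defs
open Set Filter MeasureTheory
open scoped ENNReal NNReal Topology

namespace Claimed.Agent.R210.HL.Slope

variable {X : Type*} [MetricSpace X]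

theorem hl_localSlope_le_of_eventually {f : X → ℝ} {x : X} {c : ℝ≥0∞}
    (h : ∀ᶠ y in 𝓝[≠] x, ENNReal.ofReal (|f y - f x| / dist y x) ≤ c) : localSlope f x ≤ c :=
  Filter.limsup_le_of_le (by isBoundedDefault) h

theorem hl_localSlope_le_of_lipschitz {L : ℝ≥0} {f : X → ℝ} (hf : LipschitzWith L f) (x : X) :
    localSlope f x ≤ L := by
  apply hl_localSlope_le_of_eventually
  filter_upwards [self_mem_nhdsWithin] with y hy
  have hd : 0 < dist y x := dist_pos.2 hy
  rw [← ENNReal.ofReal_coe_nnreal]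
  apply ENNReal.ofReal_le_ofReal
  rw [div_le_iff₀ hd, ← Real.dist_eq]
  exact hf.dist_le_mul y x

/-- slope bound from a modulus: `|f y - f x| ≤ ω (d(y,x)) d(y,x)` near `x`, `ω(d) → c` as `d ↓ 0`.
(For every `c' > c` eventually `ω (dist y x) < c'`, since `dist y x → 0` within `Ioi 0` along `𝓝[≠] x`;
so `localSlope ≤ ofReal c'`; let `c' ↓ c`, `ENNReal.ofReal` is continuous.) -/
theorem hl_localSlope_le_of_modulus {f : X → ℝ} {x : X} {ω : ℝ → ℝ} {c : ℝ}
    (hω : Tendsto ω (𝓝[>] 0) (𝓝 c))
    (h : ∀ᶠ y in 𝓝[≠] x, |f y - f x| ≤ ω (dist y x) * dist y x) :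
    localSlope f x ≤ ENNReal.ofReal c := by
  have hdist : Tendsto (fun y => dist y x) (𝓝[≠] x) (𝓝[>] 0) := by
    rw [tendsto_nhdsWithin_iff]
    constructor
    · have h1 : Tendsto (fun y => dist y x) (𝓝 x) (𝓝 (dist x x)) :=
        (continuous_id.dist continuous_const).tendsto x
      rw [dist_self] at h1
      exact h1.mono_left nhdsWithin_le_nhds
    · filter_upwards [self_mem_nhdsWithin] with y hy
      exact dist_pos.2 hy
  have hcomp : Tendsto (fun y => ω (dist y x)) (𝓝[≠] x) (𝓝 c) := hω.comp hdist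
  have key : ∀ ε : ℝ, 0 < ε → localSlope f x ≤ ENNReal.ofReal (c + ε) := by
    intro ε hε
    apply hl_localSlope_le_of_eventually
    filter_upwards [h, hcomp.eventually (gt_mem_nhds (show c < c + ε by linarith)), self_mem_nhdsWithin] with y h1 h2 hy
    have hd : 0 < dist y x := dist_pos.2 hy
    apply ENNReal.ofReal_le_ofReal
    rw [div_le_iff₀ hd]
    exact h1.trans (mul_le_mul_of_nonneg_right h2.le hd.le)
  have ht : Tendsto (fun ε : ℝ => ENNReal.ofReal (c + ε)) (𝓝[>] 0) (𝓝 (ENNReal.ofReal (c + 0))) :=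
    ((ENNReal.continuous_ofReal.comp (continuous_const.add continuous_id)).tendsto 0).mono_left nhdsWithin_le_nhds
  rw [add_zero] at ht
  exact ge_of_tendsto ht (by filter_upwards [self_mem_nhdsWithin] with ε hε using key ε hε)

/-- `limsup = inf_n sup_{0 < d(y,x) < 1/(n+1)}`   (`Filter.HasBasis.limsup_eq_iInf_iSup` with the basis
`ball x (1/(n+1)) ∩ {x}ᶜ` of `𝓝[≠] x`) -/
theorem hl_localSlope_eq_iInf (f : X → ℝ) (x : X) :
    localSlope f x = ⨅ n : ℕ, ⨆ y : X, ⨆ (_ : 0 < dist y x ∧ dist y x < 1 / ((n : ℝ) + 1)),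
      ENNReal.ofReal (|f y - f x| / dist y x) := by
  unfold localSlope
  rw [(nhdsWithin_hasBasis Metric.nhds_basis_ball_inv_nat_succ _).limsup_eq_iInf_iSup]
  simp only [iInf_true]
  refine iInf_congr fun n => ?_
  refine iSup_congr fun y => ?_
  refine iSup_congr_Prop ?_ fun _ => rfl
  simp only [Set.mem_inter_iff, Metric.mem_ball, Set.mem_compl_iff, Set.mem_singleton_iff, dist_pos]
  tauto

/-- for fixed `y` and `a` the set `{(t,x) | 0 < d(y,x) < r, a < ofReal (|F t y - F t x| / d(y,x))}` is open -/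
theorem hl_isOpen_aux {T : Type*} [TopologicalSpace T] {F : T → X → ℝ}
    (hF : Continuous (Function.uncurry F)) (r : ℝ) (y : X) (a : ℝ≥0∞) :
    IsOpen {p : T × X | (0 < dist y p.2 ∧ dist y p.2 < r) ∧
      a < ENNReal.ofReal (|F p.1 y - F p.1 p.2| / dist y p.2)} := by
  have hd : Continuous (fun p : T × X => dist y p.2) := continuous_const.dist continuous_snd
  have hU : IsOpen {p : T × X | 0 < dist y p.2} := isOpen_lt continuous_const hd
  have hV : IsOpen {p : T × X | dist y p.2 < r} := isOpen_lt hd continuous_const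
  have h1 : Continuous (fun p : T × X => F p.1 y) :=
    hF.comp (continuous_fst.prodMk continuous_const)
  have h2 : Continuous (fun p : T × X => F p.1 p.2) :=
    hF.comp (continuous_fst.prodMk continuous_snd)
  have hnum : Continuous (fun p : T × X => |F p.1 y - F p.1 p.2|) := (h1.sub h2).abs
  have hq : ContinuousOn (fun p : T × X => |F p.1 y - F p.1 p.2| / dist y p.2)
      {p : T × X | 0 < dist y p.2} :=
    hnum.continuousOn.div hd.continuousOn (fun p hp => ne_of_gt hp)
  have hg : ContinuousOn (fun p : T × X => ENNReal.ofReal (|F p.1 y - F p.1 p.2| / dist y p.2))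
      {p : T × X | 0 < dist y p.2} :=
    ENNReal.continuous_ofReal.comp_continuousOn hq
  have hW := hg.isOpen_inter_preimage hU (isOpen_Ioi (a := a))
  have := hW.inter hV
  convert this using 1
  ext p
  simp only [mem_ofPred_eq, mem_inter_iff, mem_preimage, mem_Ioi]
  tauto

/-- lower semicontinuity of the truncated supremum, with a parameter
(`{a < sup} = ⋃_y` of the open sets of `hl_isOpen_aux`; `lt_iSup_iff`) -/
theorem hl_lsc_sup {T : Type*} [TopologicalSpace T] {F : T → X → ℝ}
    (hF : Continuous (Function.uncurry F)) (r : ℝ) :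
    LowerSemicontinuous (fun p : T × X => ⨆ y : X, ⨆ (_ : 0 < dist y p.2 ∧ dist y p.2 < r),
      ENNReal.ofReal (|F p.1 y - F p.1 p.2| / dist y p.2)) := by
  rw [lowerSemicontinuous_iff_isOpen_preimage]
  intro a
  have : ((fun p : T × X => ⨆ y : X, ⨆ (_ : 0 < dist y p.2 ∧ dist y p.2 < r),
      ENNReal.ofReal (|F p.1 y - F p.1 p.2| / dist y p.2)) ⁻¹' Ioi a) =
      ⋃ y : X, {p : T × X | (0 < dist y p.2 ∧ dist y p.2 < r) ∧
        a < ENNReal.ofReal (|F p.1 y - F p.1 p.2| / dist y p.2)} := by
    ext p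
    simp only [mem_preimage, mem_Ioi, lt_iSup_iff, mem_iUnion, mem_ofPred_eq, exists_prop]
  rw [this]
  exact isOpen_iUnion fun y => hl_isOpen_aux hF r y a

/-- joint Borel measurability of the slope of a jointly continuous family -/
theorem hl_measurable_localSlope_param {T : Type*} [TopologicalSpace T] [MeasurableSpace T]
    [MeasurableSpace X] [OpensMeasurableSpace (T × X)] {F : T → X → ℝ}
    (hF : Continuous (Function.uncurry F)) :
    Measurable (fun p : T × X => localSlope (F p.1) p.2) := by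
  have h1 : ∀ n : ℕ, Measurable (fun p : T × X => ⨆ y : X,
      ⨆ (_ : 0 < dist y p.2 ∧ dist y p.2 < 1 / ((n : ℝ) + 1)),
        ENNReal.ofReal (|F p.1 y - F p.1 p.2| / dist y p.2)) :=
    fun n => (hl_lsc_sup hF (1 / ((n : ℝ) + 1))).measurable
  have h2 := Measurable.iInf h1
  have h : (fun p : T × X => localSlope (F p.1) p.2) = fun p : T × X =>
      ⨅ n : ℕ, ⨆ y : X, ⨆ (_ : 0 < dist y p.2 ∧ dist y p.2 < 1 / ((n : ℝ) + 1)),
        ENNReal.ofReal (|F p.1 y - F p.1 p.2| / dist y p.2) :=
    funext fun p => hl_localSlope_eq_iInf (F p.1) p.2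
  exact h ▸ h2

/-- HL6 -/
theorem hl_measurable_localSlope [MeasurableSpace X] [BorelSpace X] {f : X → ℝ} (hf : Continuous f) :
    Measurable (localSlope f) := by
  have hc : Continuous (Function.uncurry (fun (_ : ℝ) => f)) := by
    have : Function.uncurry (fun (_ : ℝ) => f) = fun p : ℝ × X => f p.2 := by
      funext p; rfl
    rw [this]
    exact hf.comp continuous_snd
  have h : Measurable (fun p : ℝ × X => localSlope f p.2) :=
    hl_measurable_localSlope_param (T := ℝ) (F := fun (_ : ℝ) => f) hc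
  have h0 : Measurable (fun x : X => ((0 : ℝ), x)) := measurable_const.prodMk measurable_id
  have h1 : Measurable (fun x : X => localSlope f x) :=
    Measurable.comp (g := fun p : ℝ × X => localSlope f p.2) (f := fun x : X => ((0 : ℝ), x)) h h0
  exact h1

end Claimed.Agent.R210.HL.Slope
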