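/-
Row 210 (S0432), layer HL (Hopf-Lax), architect helper15.   File 3: the DISCRETE Hamilton-Jacobi inequality
      `Q_{s+h} u (y) + (h s/(s+h)) * slope(Q_s u)(y)^2/2 ≤ Q_s u (y)`          (all `s, h > 0`, all `y`).
No minimisers, no derivative.  Notation: `q(s) = Q_s u (y)`, `A = q(s) - q(s+h) ≥ 0`, `Kc = 2 s (s+h)/h`, `R ≥ 0`, `R^2 = Kc A`.
(1) `hl_key_dist`: a `δ`-minimiser `z` of `(y,s)` has `d(z,y)^2 ≤ Kc (A + δ)`   [use `z` as a competitor for `(y,s+h)`].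
(2) `hl_key_upper`: `Q y' - Q y ≤ (2 R d + d^2)/(2s)`, `d = d(y',y)`              [use `z` as a competitor for `(y',s)`, `δ ↓ 0`].
(3) `hl_key_lower`: `Q y - Q y' ≤ (2 (d + sqrt (R^2 + Kc c(d))) d + d^2)/(2s)`, `c(d) = (2 R d + d^2)/(2s) + (4 s L d + d^2)/(2s)`
     [a `δ`-minimiser `z'` of `(y',s)` with `d(z',y') ≤ 2 s L` is a `(δ + c(d))`-minimiser of `(y,s)`; (1); `δ ↓ 0`].
(4) `hl_key_slope`: `slope(Q_s u)(y) ≤ R/s` by `Slope.hl_localSlope_le_of_modulus`.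
-/
import Claimed.Agent.R210.HL.Basic
import Claimed.Agent.R210.HL.Slope

set_option autoImplicit false

open Claims.C0366 Claims.C0366.WeakHessian Claimed.Agent.R210.Defs
open Claimed.Agent.R210.HL.Basic Claimed.Agent.R210.HL.Slope
open Set Filter MeasureTheory
open scoped ENNReal NNReal Topology

namespace Claimed.Agent.R210.HL.Key

variable {X : Type*} [MetricSpace X]

/-- (1): `q(s+h) ≤ u z + r^2/(2(s+h)) ≤ q(s) + δ - r^2/(2s) + r^2/(2(s+h)) = q(s) + δ - r^2 h/(2 s (s+h))` -/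
theorem hl_key_dist {L : ℝ≥0} {u : X → ℝ} (hu : LipschitzWith L u) {s h : ℝ} (hs : 0 < s) (hh : 0 < h)
    (y z : X) {δ : ℝ} (hz : u z + dist z y ^ 2 / (2 * s) ≤ hopfLax s u y + δ) :
    dist z y ^ 2 ≤ 2 * s * (s + h) / h * (hopfLax s u y - hopfLax (s + h) u y + δ) := by
  have hsh : 0 < s + h := add_pos hs hh
  have h1 := hl_le hu hsh y z
  obtain ⟨r2, hr2⟩ : ∃ r2, r2 = dist z y ^ 2 := ⟨_, rfl⟩
  rw [← hr2] at h1 hz ⊢
  have e : r2 = 2 * s * (s + h) / h * (r2 / (2 * s) - r2 / (2 * (s + h))) := by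
    field_simp
    ring
  calc r2 = 2 * s * (s + h) / h * (r2 / (2 * s) - r2 / (2 * (s + h))) := e
    _ ≤ 2 * s * (s + h) / h * (hopfLax s u y - hopfLax (s + h) u y + δ) := by
        apply mul_le_mul_of_nonneg_left _ (by positivity)
        linarith

/-- passage to the limit `δ ↓ 0` -/
theorem hl_limit_aux {a : ℝ} {F : ℝ → ℝ} (hF : Continuous F) (H : ∀ δ : ℝ, 0 < δ → a ≤ F δ) : a ≤ F 0 := by
  have h1 : Tendsto F (𝓝[>] (0 : ℝ)) (𝓝 (F 0)) := (hF.tendsto 0).mono_left nhdsWithin_le_nhds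
  exact ge_of_tendsto h1 (eventually_nhdsWithin_of_forall fun δ hδ => H δ hδ)

/-- `(r + d)^2/(2s) = r^2/(2s) + (2 r d + d^2)/(2s)` and monotonicity -/
theorem hl_sq_aux {s t r d ρ : ℝ} (hs : 0 < s) (ht0 : 0 ≤ t) (ht : t ≤ r + d) (hd : 0 ≤ d) (hr : r ≤ ρ) :
    t ^ 2 / (2 * s) ≤ r ^ 2 / (2 * s) + (2 * ρ * d + d ^ 2) / (2 * s) := by
  rw [← add_div]
  apply div_le_div_of_nonneg_right _ (by positivity)
  have h1 : t ^ 2 ≤ (r + d) ^ 2 := pow_le_pow_left₀ ht0 ht 2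
  have h2 : r * d ≤ ρ * d := mul_le_mul_of_nonneg_right hr hd
  nlinarith

/-- (2) -/
theorem hl_key_upper {L : ℝ≥0} {u : X → ℝ} (hu : LipschitzWith L u) {s h : ℝ} (hs : 0 < s) (hh : 0 < h)
    (y y' : X) {R : ℝ} (hR0 : 0 ≤ R)
    (hR : R ^ 2 = 2 * s * (s + h) / h * (hopfLax s u y - hopfLax (s + h) u y)) :
    hopfLax s u y' - hopfLax s u y ≤ (2 * R * dist y' y + dist y' y ^ 2) / (2 * s) := by
  have hF : Continuous (fun δ : ℝ => δ + (2 * Real.sqrt (R ^ 2 + 2 * s * (s + h) / h * δ) * dist y' y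
      + dist y' y ^ 2) / (2 * s)) := by fun_prop
  have key := hl_limit_aux (a := hopfLax s u y' - hopfLax s u y) hF ?_
  · simpa [Real.sqrt_sq hR0] using key
  intro δ hδ
  obtain ⟨z, hz⟩ := hl_exists_lt (u := u) hs y hδ
  have h1 := hl_key_dist hu hs hh y z hz.le
  rw [mul_add, ← hR] at h1
  have h2 : dist z y ≤ Real.sqrt (R ^ 2 + 2 * s * (s + h) / h * δ) := Real.le_sqrt_of_sq_le h1
  have h3 : dist z y' ≤ dist z y + dist y' y := by
    rw [dist_comm y' y]; exact dist_triangle _ _ _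
  have h4 := hl_sq_aux hs dist_nonneg h3 dist_nonneg h2
  have h5 := hl_le hu hs y' z
  show hopfLax s u y' - hopfLax s u y ≤ δ + (2 * Real.sqrt (R ^ 2 + 2 * s * (s + h) / h * δ) * dist y' y
      + dist y' y ^ 2) / (2 * s)
  linarith

/-- (3) -/
theorem hl_key_lower {L : ℝ≥0} {u : X → ℝ} (hu : LipschitzWith L u) {s h : ℝ} (hs : 0 < s) (hh : 0 < h)
    (y y' : X) {R : ℝ} (hR0 : 0 ≤ R)
    (hR : R ^ 2 = 2 * s * (s + h) / h * (hopfLax s u y - hopfLax (s + h) u y)) :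
    hopfLax s u y - hopfLax s u y' ≤
      (2 * (dist y' y + Real.sqrt (R ^ 2 + 2 * s * (s + h) / h *
        ((2 * R * dist y' y + dist y' y ^ 2) / (2 * s) + (4 * s * L * dist y' y + dist y' y ^ 2) / (2 * s))))
          * dist y' y + dist y' y ^ 2) / (2 * s) := by
  obtain ⟨c, hc⟩ : ∃ c, c = (2 * R * dist y' y + dist y' y ^ 2) / (2 * s)
      + (4 * s * L * dist y' y + dist y' y ^ 2) / (2 * s) := ⟨_, rfl⟩
  rw [← hc]
  have hF : Continuous (fun δ : ℝ => δ + (2 * (dist y' y + Real.sqrt (R ^ 2 + 2 * s * (s + h) / h * (δ + c)))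
      * dist y' y + dist y' y ^ 2) / (2 * s)) := by fun_prop
  have key := hl_limit_aux (a := hopfLax s u y - hopfLax s u y') hF ?_
  · simpa using key
  intro δ hδ
  obtain ⟨z, hzr, hz⟩ := hl_exists_near hu hs y' hδ
  have hup := hl_key_upper hu hs hh y y' hR0 hR
  have h3 : dist z y ≤ dist z y' + dist y' y := dist_triangle _ _ _
  have h4 := hl_sq_aux hs dist_nonneg h3 dist_nonneg hzr
  have h4' : (2 * (2 * s * (L : ℝ)) * dist y' y + dist y' y ^ 2) / (2 * s)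
      = (4 * s * L * dist y' y + dist y' y ^ 2) / (2 * s) := by ring
  rw [h4'] at h4
  have h5 : u z + dist z y ^ 2 / (2 * s) ≤ hopfLax s u y + (δ + c) := by
    rw [hc]; linarith
  have h6 := hl_key_dist hu hs hh y z h5
  rw [mul_add, ← hR] at h6
  have h7 : dist z y ≤ Real.sqrt (R ^ 2 + 2 * s * (s + h) / h * (δ + c)) := Real.le_sqrt_of_sq_le h6
  have h8 : dist z y' ≤ dist y' y + Real.sqrt (R ^ 2 + 2 * s * (s + h) / h * (δ + c)) := by
    have : dist z y' ≤ dist z y + dist y y' := dist_triangle _ _ _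
    rw [dist_comm y y'] at this
    linarith
  have h9 := hl_sq_aux hs dist_nonneg h3 dist_nonneg h8
  have h10 := hl_le hu hs y z
  show hopfLax s u y - hopfLax s u y' ≤ δ + (2 * (dist y' y + Real.sqrt (R ^ 2 + 2 * s * (s + h) / h * (δ + c)))
      * dist y' y + dist y' y ^ 2) / (2 * s)
  linarith

/-- (4) -/
theorem hl_key_slope {L : ℝ≥0} {u : X → ℝ} (hu : LipschitzWith L u) {s h : ℝ} (hs : 0 < s) (hh : 0 < h)
    (y : X) {R : ℝ} (hR0 : 0 ≤ R)
    (hR : R ^ 2 = 2 * s * (s + h) / h * (hopfLax s u y - hopfLax (s + h) u y)) :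
    localSlope (hopfLax s u) y ≤ ENNReal.ofReal (R / s) := by
  have hF : Continuous (fun d : ℝ => (2 * (d + Real.sqrt (R ^ 2 + 2 * s * (s + h) / h *
        ((2 * R * d + d ^ 2) / (2 * s) + (4 * s * L * d + d ^ 2) / (2 * s)))) + d) / (2 * s)) := by fun_prop
  have h0 : (fun d : ℝ => (2 * (d + Real.sqrt (R ^ 2 + 2 * s * (s + h) / h *
        ((2 * R * d + d ^ 2) / (2 * s) + (4 * s * L * d + d ^ 2) / (2 * s)))) + d) / (2 * s)) 0 = R / s := by
    simp [Real.sqrt_sq hR0]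
    field_simp
  have hω : Tendsto (fun d : ℝ => (2 * (d + Real.sqrt (R ^ 2 + 2 * s * (s + h) / h *
        ((2 * R * d + d ^ 2) / (2 * s) + (4 * s * L * d + d ^ 2) / (2 * s)))) + d) / (2 * s))
        (𝓝[>] 0) (𝓝 (R / s)) := by
    rw [← h0]
    exact (hF.tendsto 0).mono_left nhdsWithin_le_nhds
  refine hl_localSlope_le_of_modulus hω (Filter.Eventually.of_forall fun y' => ?_)
  have hup := hl_key_upper hu hs hh y y' hR0 hR
  have hlo := hl_key_lower hu hs hh y y' hR0 hR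
  obtain ⟨d, hd⟩ : ∃ d, d = dist y' y := ⟨_, rfl⟩
  have hd0 : 0 ≤ d := hd ▸ dist_nonneg
  rw [← hd] at hup hlo
  show |hopfLax s u y' - hopfLax s u y| ≤ (2 * (dist y' y + Real.sqrt (R ^ 2 + 2 * s * (s + h) / h *
        ((2 * R * dist y' y + dist y' y ^ 2) / (2 * s) + (4 * s * L * dist y' y + dist y' y ^ 2) / (2 * s))))
          + dist y' y) / (2 * s) * dist y' y
  rw [← hd]
  have hc0 : 0 ≤ 2 * s * (s + h) / h * ((2 * R * d + d ^ 2) / (2 * s) + (4 * s * L * d + d ^ 2) / (2 * s)) := by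
    positivity
  obtain ⟨ρ, hρ⟩ : ∃ ρ, ρ = Real.sqrt (R ^ 2 + 2 * s * (s + h) / h *
        ((2 * R * d + d ^ 2) / (2 * s) + (4 * s * L * d + d ^ 2) / (2 * s))) := ⟨_, rfl⟩
  have hRρ : R ≤ ρ := by
    rw [hρ]
    apply Real.le_sqrt_of_sq_le
    linarith
  rw [← hρ] at hlo ⊢
  have e : (2 * (d + ρ) + d) / (2 * s) * d = (2 * (d + ρ) * d + d ^ 2) / (2 * s) := by ring
  rw [e, abs_le]
  constructor
  · linarith
  · refine hup.trans ?_
    apply div_le_div_of_nonneg_right _ (by positivity)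
    have h2 : R * d ≤ ρ * d := mul_le_mul_of_nonneg_right hRρ hd0
    nlinarith

/-- **discrete Hamilton-Jacobi inequality** -/
theorem hl_discrete {L : ℝ≥0} {u : X → ℝ} (hu : LipschitzWith L u) {s h : ℝ} (hs : 0 < s) (hh : 0 < h) (y : X) :
    hopfLax (s + h) u y + h * s / (s + h) * ((localSlope (hopfLax s u) y).toReal ^ 2 / 2) ≤ hopfLax s u y := by
  have hsh : 0 < s + h := add_pos hs hh
  have hA : 0 ≤ hopfLax s u y - hopfLax (s + h) u y := by
    have := hl_anti hu (by linarith : s ≤ s + h) y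
    linarith
  obtain ⟨A, hAe⟩ : ∃ A, A = hopfLax s u y - hopfLax (s + h) u y := ⟨_, rfl⟩
  rw [← hAe] at hA
  have hK : 0 ≤ 2 * s * (s + h) / h * A := by positivity
  have hR0 : 0 ≤ Real.sqrt (2 * s * (s + h) / h * A) := Real.sqrt_nonneg _
  have hR : Real.sqrt (2 * s * (s + h) / h * A) ^ 2
      = 2 * s * (s + h) / h * (hopfLax s u y - hopfLax (s + h) u y) := by
    rw [Real.sq_sqrt hK, hAe]
  have hsl := hl_key_slope hu hs hh y hR0 hR
  obtain ⟨R, hRe⟩ : ∃ R, R = Real.sqrt (2 * s * (s + h) / h * A) := ⟨_, rfl⟩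
  rw [← hRe] at hsl hR hR0
  rw [← hAe] at hR
  have h1 : (localSlope (hopfLax s u) y).toReal ≤ R / s :=
    ENNReal.toReal_le_of_le_ofReal (by positivity) hsl
  have h2 : (localSlope (hopfLax s u) y).toReal ^ 2 ≤ (R / s) ^ 2 :=
    pow_le_pow_left₀ ENNReal.toReal_nonneg h1 2
  have h3 : h * s / (s + h) * ((R / s) ^ 2 / 2) = A := by
    rw [div_pow, hR]
    field_simp
  have h4 : h * s / (s + h) * ((localSlope (hopfLax s u) y).toReal ^ 2 / 2)
      ≤ h * s / (s + h) * ((R / s) ^ 2 / 2) := by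
    apply mul_le_mul_of_nonneg_left _ (by positivity)
    linarith
  linarith

end Claimed.Agent.R210.HL.Key
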