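/-
Row 210 (S0432), layer HL (Hopf-Lax), architect helper15.   File 5: the Hamilton-Jacobi subsolution property (HL2, HL3).
-/
import Claimed.Agent.R210.HL.Key
import Claimed.Agent.R210.HL.Concave

set_option autoImplicit false

open Claims.C0366 Claims.C0366.WeakHessian Claimed.Agent.R210.Defs
open Claimed.Agent.R210.HL.Basic Claimed.Agent.R210.HL.Slope Claimed.Agent.R210.HL.Key Claimed.Agent.R210.HL.Concave
open Set Filter MeasureTheory
open scoped ENNReal NNReal Topology

namespace Claimed.Agent.R210.HL.Sub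

variable {X : Type*} [MetricSpace X]

/-- `slope (Q_s u) ≤ 2L` -/
theorem hl_slope_le {L : ℝ≥0} {u : X → ℝ} (hu : LipschitzWith L u) (s : ℝ) (y : X) :
    localSlope (hopfLax s u) y ≤ ((2 * L : ℝ≥0) : ℝ≥0∞) :=
  hl_localSlope_le_of_lipschitz (hl_lipschitz hu s) y

theorem hl_slope_toReal_le {L : ℝ≥0} {u : X → ℝ} (hu : LipschitzWith L u) (s : ℝ) (y : X) :
    (localSlope (hopfLax s u) y).toReal ≤ 2 * L := by
  have h := ENNReal.toReal_mono ENNReal.coe_ne_top (hl_slope_le hu s y)
  simpa using h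

/-- at a point of (right) differentiability: divide `Key.hl_discrete` by `h` and let `h ↓ 0` -/
theorem hl_deriv_le {L : ℝ≥0} {u : X → ℝ} (hu : LipschitzWith L u) {s : ℝ} (hs : 0 < s) (y : X) {D : ℝ}
    (hD : HasDerivWithinAt (fun r : ℝ => hopfLax r u y) D (Ioi s) s) :
    D + (localSlope (hopfLax s u) y).toReal ^ 2 / 2 ≤ 0 := by
  set σ : ℝ := (localSlope (hopfLax s u) y).toReal ^ 2 / 2 with hσ
  have h1 : Tendsto (slope (fun r : ℝ => hopfLax r u y) s) (𝓝[Ioi s] s) (𝓝 D) :=
    (hasDerivWithinAt_iff_tendsto_slope' (by simp)).1 hD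
  have h2 : Tendsto (fun r : ℝ => -(s / r * σ)) (𝓝[Ioi s] s) (𝓝 (-(s / s * σ))) := by
    have hc : ContinuousAt (fun r : ℝ => -(s / r * σ)) s :=
      ((continuousAt_const.div continuousAt_id hs.ne').mul continuousAt_const).neg
    exact hc.tendsto.mono_left nhdsWithin_le_nhds
  have h3 : ∀ᶠ r in 𝓝[Ioi s] s, slope (fun r : ℝ => hopfLax r u y) s r ≤ -(s / r * σ) := by
    filter_upwards [self_mem_nhdsWithin] with r hr
    have hr' : s < r := hr
    have hh : 0 < r - s := sub_pos.2 hr'
    have hr0 : 0 < r := hs.trans hr'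
    have hd := hl_discrete hu hs hh y
    have e : s + (r - s) = r := by ring
    rw [e] at hd
    rw [slope_def_field, div_le_iff₀ hh]
    have e2 : (r - s) * s / r * σ = s / r * σ * (r - s) := by ring
    have hd' : hopfLax r u y + (r - s) * s / r * σ ≤ hopfLax s u y := hd
    rw [e2] at hd'
    linarith
  have h4 := le_of_tendsto_of_tendsto h1 h2 h3
  rw [div_self hs.ne', one_mul] at h4
  linarith

/-- HL2 -/
theorem hl_subsolution {L : ℝ≥0} {u : X → ℝ} (hu : LipschitzWith L u) (y : X) :
    ∃ C : Set ℝ, C.Countable ∧ ∀ s : ℝ, 0 < s → s ∉ C →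
      DifferentiableAt ℝ (fun r : ℝ => hopfLax r u y) s ∧
      deriv (fun r : ℝ => hopfLax r u y) s + (localSlope (hopfLax s u) y).toReal ^ 2 / 2 ≤ 0 := by
  refine ⟨_, hl_countable hu y, fun s hs hsC => ?_⟩
  have hd : DifferentiableAt ℝ (fun r : ℝ => hopfLax r u y) s := by
    by_contra hcon
    exact hsC ⟨hs, hcon⟩
  exact ⟨hd, hl_deriv_le hu hs y hd.hasDerivAt.hasDerivWithinAt⟩

/-- `|d/ds Q_s u y| ≤ 2 L^2` -/
theorem hl_abs_deriv_le {L : ℝ≥0} {u : X → ℝ} (hu : LipschitzWith L u) (s : ℝ) (y : X) :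
    |deriv (fun r : ℝ => hopfLax r u y) s| ≤ 2 * (L : ℝ) ^ 2 := by
  have hL : LipschitzWith (2 * L ^ 2) (fun r : ℝ => hopfLax r u y) := by
    refine LipschitzWith.of_dist_le_mul fun a b => ?_
    rw [Real.dist_eq, Real.dist_eq]
    simpa using hl_time hu a b y
  have h := norm_deriv_le_of_lipschitz (x₀ := s) hL
  simpa using h

variable [MeasurableSpace X] [BorelSpace X]

/-- HL3 -/
theorem hl_measurable {L : ℝ≥0} {u : X → ℝ} (hu : LipschitzWith L u) :
    Measurable (fun p : ℝ × X => hopfLax p.1 u p.2) :=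
  (hl_continuous hu).measurable

/-- HL3 -/
theorem hl_measurable_slope {L : ℝ≥0} {u : X → ℝ} (hu : LipschitzWith L u) :
    Measurable (fun p : ℝ × X => localSlope (hopfLax p.1 u) p.2) :=
  hl_measurable_localSlope_param (T := ℝ) (F := fun s => hopfLax s u) (hl_continuous hu)

/-- joint measurability of the time derivative (`measurable_deriv_with_param`) -/
theorem hl_measurable_deriv {L : ℝ≥0} {u : X → ℝ} (hu : LipschitzWith L u) :
    Measurable (fun p : X × ℝ => deriv (fun r : ℝ => hopfLax r u p.1) p.2) := by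
  have hc : Continuous (Function.uncurry (fun (y : X) (r : ℝ) => hopfLax r u y)) :=
    (hl_continuous hu).comp continuous_swap
  exact measurable_deriv_with_param hc

omit [MeasurableSpace X] [BorelSpace X] in
/-- measurability in time for fixed `y` (no σ-algebra on `X` needed: put the Borel σ-algebra) -/
theorem hl_measurable_slope_time {L : ℝ≥0} {u : X → ℝ} (hu : LipschitzWith L u) (y : X) :
    Measurable (fun s : ℝ => localSlope (hopfLax s u) y) := by
  let _ : MeasurableSpace X := borel X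
  have : BorelSpace X := ⟨rfl⟩
  exact Measurable.comp (g := fun p : ℝ × X => localSlope (hopfLax p.1 u) p.2) (f := fun s : ℝ => (s, y))
    (hl_measurable_slope hu) (measurable_id.prodMk measurable_const)

omit [MeasurableSpace X] [BorelSpace X] in
/-- integrated form of HL2.  FTC `MeasureTheory.integral_eq_of_hasDerivAt_off_countable_of_le` for `r ↦ Q_r u y` on `[s,t]`
(continuous, differentiable off a countable set, derivative bounded and measurable), then `hl_subsolution`. -/
theorem hl_integrated {L : ℝ≥0} {u : X → ℝ} (hu : LipschitzWith L u) (y : X) {s t : ℝ} (hs : 0 ≤ s) (hst : s ≤ t) :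
    hopfLax t u y + ∫ r in s..t, (localSlope (hopfLax r u) y).toReal ^ 2 / 2 ≤ hopfLax s u y := by
  obtain ⟨C, hC, hsub⟩ := hl_subsolution hu y
  have hcont : Continuous (fun r : ℝ => hopfLax r u y) := by
    have hlip : LipschitzWith (2 * L ^ 2) (fun r : ℝ => hopfLax r u y) :=
      LipschitzWith.of_dist_le_mul (fun a b => by
        rw [Real.dist_eq, Real.dist_eq]
        simpa using hl_time hu a b y)
    exact hlip.continuous
  have hderiv : ∀ r ∈ Ioo s t \ C,
      HasDerivAt (fun r : ℝ => hopfLax r u y) (deriv (fun r : ℝ => hopfLax r u y) r) r :=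
    fun r hr => ((hsub r (lt_of_le_of_lt hs hr.1.1) hr.2).1).hasDerivAt
  have hmeas : Measurable (deriv (fun r : ℝ => hopfLax r u y)) := measurable_deriv _
  have hint1 : IntervalIntegrable (deriv (fun r : ℝ => hopfLax r u y)) volume s t := by
    refine (intervalIntegrable_const (c := 2 * (L : ℝ) ^ 2)).mono_fun
      hmeas.aestronglyMeasurable (Eventually.of_forall fun r => ?_)
    show ‖deriv (fun r : ℝ => hopfLax r u y) r‖ ≤ ‖2 * (L : ℝ) ^ 2‖
    rw [Real.norm_eq_abs, Real.norm_eq_abs]
    exact (hl_abs_deriv_le hu r y).trans (le_abs_self _)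
  have hftc : ∫ r in s..t, deriv (fun r : ℝ => hopfLax r u y) r
      = hopfLax t u y - hopfLax s u y :=
    MeasureTheory.integral_eq_of_hasDerivAt_off_countable_of_le _ _ hst hC
      hcont.continuousOn hderiv hint1
  have hmeas2 : Measurable (fun r : ℝ => (localSlope (hopfLax r u) y).toReal ^ 2 / 2) :=
    (((hl_measurable_slope_time hu y).ennreal_toReal).pow_const 2).div_const 2
  have hint2 : IntervalIntegrable (fun r : ℝ => (localSlope (hopfLax r u) y).toReal ^ 2 / 2)
      volume s t := by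
    refine (intervalIntegrable_const (c := 2 * (L : ℝ) ^ 2)).mono_fun
      hmeas2.aestronglyMeasurable (Eventually.of_forall fun r => ?_)
    show ‖(localSlope (hopfLax r u) y).toReal ^ 2 / 2‖ ≤ ‖2 * (L : ℝ) ^ 2‖
    rw [Real.norm_eq_abs, Real.norm_eq_abs]
    have h0 : 0 ≤ (localSlope (hopfLax r u) y).toReal := ENNReal.toReal_nonneg
    have h1 := hl_slope_toReal_le hu r y
    have h2 : (localSlope (hopfLax r u) y).toReal ^ 2 ≤ (2 * (L : ℝ)) ^ 2 :=
      pow_le_pow_left₀ h0 h1 2
    rw [abs_of_nonneg (by positivity)]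
    refine le_trans ?_ (le_abs_self _)
    nlinarith
  have hle : ∫ r in s..t, (localSlope (hopfLax r u) y).toReal ^ 2 / 2
      ≤ ∫ r in s..t, - deriv (fun r : ℝ => hopfLax r u y) r := by
    refine intervalIntegral.integral_mono_ae_restrict hst hint2 hint1.neg ?_
    have hnull : ∀ᵐ r : ℝ, r ∉ C ∪ {s} := by
      have : (C ∪ {s}).Countable := hC.union (countable_singleton s)
      exact (measure_eq_zero_iff_ae_notMem).1 (this.measure_zero volume)
    rw [Filter.EventuallyLE, ae_restrict_iff' measurableSet_Icc]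
    filter_upwards [hnull] with r hr hrI
    have hrC : r ∉ C := fun h => hr (Or.inl h)
    have hrs : r ≠ s := fun h => hr (Or.inr h)
    have hpos : 0 < r := lt_of_le_of_lt hs (lt_of_le_of_ne hrI.1 (Ne.symm hrs))
    have := (hsub r hpos hrC).2
    linarith
  rw [intervalIntegral.integral_neg, hftc] at hle
  linarith

/-- the set of the good points `(y,s)` is measurable
(`measurableSet_of_differentiableAt_with_param`, `measurable_deriv_with_param`, `hl_measurable_slope`) -/
theorem hl_measurableSet_good {L : ℝ≥0} {u : X → ℝ} (hu : LipschitzWith L u) :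
    MeasurableSet {p : X × ℝ | DifferentiableAt ℝ (fun r : ℝ => hopfLax r u p.1) p.2 ∧
      deriv (fun r : ℝ => hopfLax r u p.1) p.2 + (localSlope (hopfLax p.2 u) p.1).toReal ^ 2 / 2 ≤ 0} := by
  have hc : Continuous (Function.uncurry (fun (y : X) (r : ℝ) => hopfLax r u y)) :=
    (hl_continuous hu).comp continuous_swap
  have h1 : MeasurableSet {p : X × ℝ | DifferentiableAt ℝ (fun r : ℝ => hopfLax r u p.1) p.2} :=
    measurableSet_of_differentiableAt_with_param ℝ hc
  have h2 : Measurable (fun p : X × ℝ => localSlope (hopfLax p.2 u) p.1) :=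
    Measurable.comp (g := fun p : ℝ × X => localSlope (hopfLax p.1 u) p.2) (f := fun p : X × ℝ => (p.2, p.1))
      (hl_measurable_slope hu) measurable_swap
  have h3 : Measurable (fun p : X × ℝ => deriv (fun r : ℝ => hopfLax r u p.1) p.2
      + (localSlope (hopfLax p.2 u) p.1).toReal ^ 2 / 2) :=
    (hl_measurable_deriv hu).add ((h2.ennreal_toReal.pow_const 2).div_const 2)
  exact h1.inter (measurableSet_le h3 measurable_const)

/-- HL3, consequence (Fubini) -/
theorem hl_ae {L : ℝ≥0} {u : X → ℝ} (hu : LipschitzWith L u) (m : Measure X) [SFinite m] :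
    ∀ᵐ s : ℝ, 0 < s → ∀ᵐ y ∂m,
      DifferentiableAt ℝ (fun r : ℝ => hopfLax r u y) s ∧
      deriv (fun r : ℝ => hopfLax r u y) s + (localSlope (hopfLax s u) y).toReal ^ 2 / 2 ≤ 0 := by
  have hG := hl_measurableSet_good hu
  have hpos : MeasurableSet {p : X × ℝ | 0 < p.2} := measurableSet_lt measurable_const measurable_snd
  have hM : MeasurableSet {p : X × ℝ | 0 < p.2 →
      (DifferentiableAt ℝ (fun r : ℝ => hopfLax r u p.1) p.2 ∧
      deriv (fun r : ℝ => hopfLax r u p.1) p.2 + (localSlope (hopfLax p.2 u) p.1).toReal ^ 2 / 2 ≤ 0)} := by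
    have h := hpos.compl.union hG
    convert h using 1
    ext p
    simp only [mem_ofPred_eq, mem_union, mem_compl_iff]
    tauto
  have h1 : ∀ᵐ y ∂m, ∀ᵐ s : ℝ, 0 < s →
      (DifferentiableAt ℝ (fun r : ℝ => hopfLax r u y) s ∧
      deriv (fun r : ℝ => hopfLax r u y) s + (localSlope (hopfLax s u) y).toReal ^ 2 / 2 ≤ 0) := by
    refine Filter.Eventually.of_forall (fun y => ?_)
    obtain ⟨C, hC, h⟩ := hl_subsolution hu y
    have hC0 : ∀ᵐ s : ℝ, s ∉ C := (measure_eq_zero_iff_ae_notMem).1 (hC.measure_zero volume)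
    filter_upwards [hC0] with s hs hs0
    exact h s hs0 hs
  have h2 := (Measure.ae_ae_comm (μ := m) (ν := (volume : Measure ℝ))
    (p := fun y s => 0 < s → (DifferentiableAt ℝ (fun r : ℝ => hopfLax r u y) s ∧
      deriv (fun r : ℝ => hopfLax r u y) s + (localSlope (hopfLax s u) y).toReal ^ 2 / 2 ≤ 0)) hM).1 h1
  filter_upwards [h2] with s hs hs0
  filter_upwards [hs] with y hy
  exact hy hs0

end Claimed.Agent.R210.HL.Sub
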