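/-
Row 210 (S0432), layer HL (Hopf-Lax), architect helper15.   INTERFACE: consumers import only this file.
`Q_s u = Defs.hopfLax s u`  (`= u` for `s ≤ 0`).   `u : X → ℝ` is `L`-Lipschitz on an ARBITRARY metric space; boundedness of `u`
is needed only for the sup bounds.   Exports are called `hl1_*, ..., hl6_*` after the items HL1-HL6 of the master plan.
Extra exports (not in the contract, often handier):
* `hl2_discrete`   : `Q_{s+h} u y + (h s/(s+h)) slope(Q_s u)(y)^2/2 ≤ Q_s u y`     (all `s,h > 0`, all `y`; no derivative)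
* `hl2_right`      : the subsolution inequality for the RIGHT derivative at EVERY `s > 0`
* `hl2_integrated` : `Q_t u y + ∫_s^t slope(Q_r u)(y)^2/2 dr ≤ Q_s u y`            (all `0 ≤ s ≤ t`, all `y`)
-/
import Claimed.Agent.R210.HL.Sub

set_option autoImplicit false

open Claims.C0366 Claims.C0366.WeakHessian Claimed.Agent.R210.Defs
open Claimed.Agent.R210.HL
open Set Filter MeasureTheory
open scoped ENNReal NNReal Topology

namespace Claimed.Agent.R210.HL.Ifc

variable {X : Type*} [MetricSpace X]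

/-! ### HL1 -/

theorem hl1_of_pos {s : ℝ} (hs : 0 < s) (u : X → ℝ) (y : X) :
    hopfLax s u y = ⨅ z : X, (u z + dist z y ^ 2 / (2 * s)) := Basic.hl_of_pos hs u y

theorem hl1_of_nonpos {s : ℝ} (hs : s ≤ 0) (u : X → ℝ) (y : X) : hopfLax s u y = u y :=
  Basic.hl_of_nonpos hs u y

theorem hl1_zero (u : X → ℝ) : hopfLax 0 u = u := funext fun y => Basic.hl_of_nonpos le_rfl u y

/-- `Q_s u y ≤` every competitor -/
theorem hl1_le_comp {L : ℝ≥0} {u : X → ℝ} (hu : LipschitzWith L u) {s : ℝ} (hs : 0 < s) (y z : X) :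
    hopfLax s u y ≤ u z + dist z y ^ 2 / (2 * s) := Basic.hl_le hu hs y z

/-- a lower bound of all competitors is a lower bound of `Q_s u y` -/
theorem hl1_ge_of_forall_comp {u : X → ℝ} {s : ℝ} (hs : 0 < s) (y : X) {c : ℝ}
    (hc : ∀ z, c ≤ u z + dist z y ^ 2 / (2 * s)) : c ≤ hopfLax s u y := Basic.hl_ge_of_forall_comp hs y hc

theorem hl1_le_self {L : ℝ≥0} {u : X → ℝ} (hu : LipschitzWith L u) (s : ℝ) (y : X) :
    hopfLax s u y ≤ u y := Basic.hl_le_self hu s y

theorem hl1_ge_of_forall {u : X → ℝ} {c : ℝ} (hc : ∀ z, c ≤ u z) (s : ℝ) (y : X) :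
    c ≤ hopfLax s u y := Basic.hl_ge_of_forall hc s y

theorem hl1_abs_le {L : ℝ≥0} {u : X → ℝ} (hu : LipschitzWith L u) {B : ℝ} (hB : ∀ z, |u z| ≤ B) (s : ℝ) (y : X) :
    |hopfLax s u y| ≤ B :=
  abs_le.mpr ⟨Basic.hl_ge_of_forall (fun z => (abs_le.mp (hB z)).1) s y,
    (Basic.hl_le_self hu s y).trans (abs_le.mp (hB y)).2⟩

theorem hl1_lipschitz {L : ℝ≥0} {u : X → ℝ} (hu : LipschitzWith L u) (s : ℝ) :
    LipschitzWith (2 * L) (hopfLax s u) := Basic.hl_lipschitz hu s

theorem hl1_LipB {u : X → ℝ} (hu : LipB u) (s : ℝ) : LipB (hopfLax s u) := by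
  obtain ⟨⟨L, hL⟩, ⟨B, hB⟩⟩ := hu
  exact ⟨⟨2 * L, Basic.hl_lipschitz hL s⟩, ⟨B, fun y => hl1_abs_le hL hB s y⟩⟩

theorem hl1_anti {L : ℝ≥0} {u : X → ℝ} (hu : LipschitzWith L u) {s s' : ℝ} (h : s ≤ s') (y : X) :
    hopfLax s' u y ≤ hopfLax s u y := Basic.hl_anti hu h y

theorem hl1_mono {L : ℝ≥0} {u v : X → ℝ} (hu : LipschitzWith L u) (huv : ∀ z, u z ≤ v z) (s : ℝ) (y : X) :
    hopfLax s u y ≤ hopfLax s v y := Basic.hl_mono hu huv s y

/-- adding a constant -/
theorem hl1_add_const {L : ℝ≥0} {u : X → ℝ} (hu : LipschitzWith L u) (c : ℝ) (s : ℝ) (y : X) :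
    hopfLax s (fun z => u z + c) y = hopfLax s u y + c := by
  rcases le_or_gt s 0 with hs | hs
  · rw [Basic.hl_of_nonpos hs, Basic.hl_of_nonpos hs]
  · have huc : LipschitzWith L (fun z => u z + c) := by
      simpa using hu.add (LipschitzWith.const c)
    apply le_antisymm
    · have h1 : hopfLax s (fun z => u z + c) y - c ≤ hopfLax s u y := by
        refine Basic.hl_ge_of_forall_comp hs y fun z => ?_
        have := Basic.hl_le huc hs y z
        linarith
      linarith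
    · refine Basic.hl_ge_of_forall_comp hs y fun z => ?_
      have := Basic.hl_le hu hs y z
      linarith

theorem hl1_sub_const {L : ℝ≥0} {u : X → ℝ} (hu : LipschitzWith L u) (c : ℝ) (s : ℝ) (y : X) :
    hopfLax s (fun z => u z - c) y = hopfLax s u y - c := by
  simpa [sub_eq_add_neg] using hl1_add_const hu (-c) s y

theorem hl1_nonpos {L : ℝ≥0} {u : X → ℝ} (hu : LipschitzWith L u) (h0 : ∀ z, u z ≤ 0) (s : ℝ) (y : X) :
    hopfLax s u y ≤ 0 := (Basic.hl_le_self hu s y).trans (h0 y)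

/-- Lipschitz in time (all real times) -/
theorem hl1_time {L : ℝ≥0} {u : X → ℝ} (hu : LipschitzWith L u) (s s' : ℝ) (y : X) :
    |hopfLax s u y - hopfLax s' u y| ≤ 2 * (L : ℝ) ^ 2 * |s - s'| := Basic.hl_time hu s s' y

theorem hl1_sub_self {L : ℝ≥0} {u : X → ℝ} (hu : LipschitzWith L u) (s : ℝ) (y : X) :
    |hopfLax s u y - u y| ≤ 2 * (L : ℝ) ^ 2 * |s| := by
  have := Basic.hl_time hu s 0 y
  rwa [Basic.hl_of_nonpos le_rfl, sub_zero] at this

/-- sharper lower bound -/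
theorem hl1_ge {L : ℝ≥0} {u : X → ℝ} (hu : LipschitzWith L u) {s : ℝ} (hs : 0 ≤ s) (y : X) :
    u y - (L : ℝ) ^ 2 * s / 2 ≤ hopfLax s u y := Basic.hl_ge hu hs y

/-- `Q_s u → u` uniformly as `s → 0` -/
theorem hl1_tendstoUniformly {L : ℝ≥0} {u : X → ℝ} (hu : LipschitzWith L u) :
    TendstoUniformly (fun s : ℝ => hopfLax s u) u (𝓝 0) := Basic.hl_tendstoUniformly hu

/-- the infimum may be restricted to `d(z,y) ≤ 2 s L` -/
theorem hl1_exists_near {L : ℝ≥0} {u : X → ℝ} (hu : LipschitzWith L u) {s : ℝ} (hs : 0 < s) (y : X)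
    {ε : ℝ} (hε : 0 < ε) :
    ∃ z, dist z y ≤ 2 * s * L ∧ u z + dist z y ^ 2 / (2 * s) < hopfLax s u y + ε :=
  Basic.hl_exists_near hu hs y hε

/-- joint continuity in `(s,y) ∈ ℝ × X` -/
theorem hl1_continuous {L : ℝ≥0} {u : X → ℝ} (hu : LipschitzWith L u) :
    Continuous (fun p : ℝ × X => hopfLax p.1 u p.2) := Basic.hl_continuous hu

/-! ### HL2 -/

theorem hl2_slope_le {L : ℝ≥0} {u : X → ℝ} (hu : LipschitzWith L u) (s : ℝ) (y : X) :
    localSlope (hopfLax s u) y ≤ ((2 * L : ℝ≥0) : ℝ≥0∞) := Sub.hl_slope_le hu s y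

theorem hl2_slope_toReal_le {L : ℝ≥0} {u : X → ℝ} (hu : LipschitzWith L u) (s : ℝ) (y : X) :
    (localSlope (hopfLax s u) y).toReal ≤ 2 * L := Sub.hl_slope_toReal_le hu s y

/-- discrete Hamilton-Jacobi inequality -/
theorem hl2_discrete {L : ℝ≥0} {u : X → ℝ} (hu : LipschitzWith L u) {s h : ℝ} (hs : 0 < s) (hh : 0 < h) (y : X) :
    hopfLax (s + h) u y + h * s / (s + h) * ((localSlope (hopfLax s u) y).toReal ^ 2 / 2) ≤ hopfLax s u y :=
  Key.hl_discrete hu hs hh y

/-- subsolution inequality for the right derivative, every `s > 0` -/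
theorem hl2_right {L : ℝ≥0} {u : X → ℝ} (hu : LipschitzWith L u) {s : ℝ} (hs : 0 < s) (y : X) {D : ℝ}
    (hD : HasDerivWithinAt (fun r : ℝ => hopfLax r u y) D (Ioi s) s) :
    D + (localSlope (hopfLax s u) y).toReal ^ 2 / 2 ≤ 0 := Sub.hl_deriv_le hu hs y hD

/-- **HL2** -/
theorem hl2_subsolution {L : ℝ≥0} {u : X → ℝ} (hu : LipschitzWith L u) (y : X) :
    ∃ C : Set ℝ, C.Countable ∧ ∀ s : ℝ, 0 < s → s ∉ C →
      DifferentiableAt ℝ (fun r : ℝ => hopfLax r u y) s ∧
      deriv (fun r : ℝ => hopfLax r u y) s + (localSlope (hopfLax s u) y).toReal ^ 2 / 2 ≤ 0 :=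
  Sub.hl_subsolution hu y

theorem hl2_abs_deriv_le {L : ℝ≥0} {u : X → ℝ} (hu : LipschitzWith L u) (s : ℝ) (y : X) :
    |deriv (fun r : ℝ => hopfLax r u y) s| ≤ 2 * (L : ℝ) ^ 2 := Sub.hl_abs_deriv_le hu s y

/-- integrated form of HL2 -/
theorem hl2_integrated {L : ℝ≥0} {u : X → ℝ} (hu : LipschitzWith L u) (y : X) {s t : ℝ} (hs : 0 ≤ s) (hst : s ≤ t) :
    hopfLax t u y + ∫ r in s..t, (localSlope (hopfLax r u) y).toReal ^ 2 / 2 ≤ hopfLax s u y :=
  Sub.hl_integrated hu y hs hst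

/-! ### HL3 (no separability needed: `ℝ` is second countable) -/

theorem hl3_measurable_slope_time {L : ℝ≥0} {u : X → ℝ} (hu : LipschitzWith L u) (y : X) :
    Measurable (fun s : ℝ => localSlope (hopfLax s u) y) := Sub.hl_measurable_slope_time hu y

section
variable [MeasurableSpace X] [BorelSpace X]

theorem hl3_measurable {L : ℝ≥0} {u : X → ℝ} (hu : LipschitzWith L u) :
    Measurable (fun p : ℝ × X => hopfLax p.1 u p.2) := Sub.hl_measurable hu

theorem hl3_measurable_slope {L : ℝ≥0} {u : X → ℝ} (hu : LipschitzWith L u) :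
    Measurable (fun p : ℝ × X => localSlope (hopfLax p.1 u) p.2) := Sub.hl_measurable_slope hu

/-- joint measurability of the time derivative -/
theorem hl3_measurable_deriv {L : ℝ≥0} {u : X → ℝ} (hu : LipschitzWith L u) :
    Measurable (fun p : X × ℝ => deriv (fun r : ℝ => hopfLax r u p.1) p.2) := Sub.hl_measurable_deriv hu

/-- **HL3** -/
theorem hl3_ae {L : ℝ≥0} {u : X → ℝ} (hu : LipschitzWith L u) (m : Measure X) [SFinite m] :
    ∀ᵐ s : ℝ, 0 < s → ∀ᵐ y ∂m,
      DifferentiableAt ℝ (fun r : ℝ => hopfLax r u y) s ∧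
      deriv (fun r : ℝ => hopfLax r u y) s + (localSlope (hopfLax s u) y).toReal ^ 2 / 2 ≤ 0 :=
  Sub.hl_ae hu m

end

/-! ### HL4 -/

theorem hl4_nonneg {u : X → ℝ} (h0 : ∀ z, 0 ≤ u z) (s : ℝ) (y : X) : 0 ≤ hopfLax s u y :=
  Basic.hl_ge_of_forall h0 s y

theorem hl4_support_subset {L : ℝ≥0} {u : X → ℝ} (hu : LipschitzWith L u) (h0 : ∀ z, 0 ≤ u z) (s : ℝ) :
    Function.support (hopfLax s u) ⊆ Function.support u := by
  intro y hy hy0
  exact hy (le_antisymm ((Basic.hl_le_self hu s y).trans hy0.le) (Basic.hl_ge_of_forall h0 s y))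

theorem hl4_hasCompactSupport {L : ℝ≥0} {u : X → ℝ} (hu : LipschitzWith L u) (h0 : ∀ z, 0 ≤ u z)
    (hc : HasCompactSupport u) (s : ℝ) : HasCompactSupport (hopfLax s u) :=
  hc.mono (hl4_support_subset hu h0 s)

/-- no sign condition is needed -/
theorem hl4_eq_zero_of_far {L : ℝ≥0} {u : X → ℝ} (hu : LipschitzWith L u) {o : X} {R : ℝ}
    (hsupp : ∀ z, R < dist z o → u z = 0) {s : ℝ} (hs : 0 ≤ s) {y : X} (hy : R + 2 * s * L < dist y o) :
    hopfLax s u y = 0 := Basic.hl_eq_zero_of_far hu hsupp hs hy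

theorem hl4_support_subset_closedBall {L : ℝ≥0} {u : X → ℝ} (hu : LipschitzWith L u) {o : X} {R : ℝ}
    (hsupp : Function.support u ⊆ Metric.closedBall o R) {s : ℝ} (hs : 0 ≤ s) :
    Function.support (hopfLax s u) ⊆ Metric.closedBall o (R + 2 * s * L) := by
  intro y hy
  by_contra hcon
  refine hy (Basic.hl_eq_zero_of_far hu (fun z hz => ?_) hs (not_le.mp hcon))
  by_contra hz0
  exact absurd (hsupp hz0) (not_le.mpr hz)

/-- `Q_s` preserves `LipC` on a proper space (no sign condition) -/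
theorem hl4_LipC [ProperSpace X] {u : X → ℝ} (hu : LipC u) {s : ℝ} (hs : 0 ≤ s) : LipC (hopfLax s u) := by
  obtain ⟨⟨L, hL⟩, hc⟩ := hu
  refine ⟨⟨2 * L, Basic.hl_lipschitz hL s⟩, ?_⟩
  rcases isEmpty_or_nonempty X with hX | ⟨⟨o⟩⟩
  · exact HasCompactSupport.of_support_subset_isCompact (K := ∅) isCompact_empty
      (fun y _ => (hX.false y).elim)
  · obtain ⟨R, hR⟩ := hc.isCompact.isBounded.subset_closedBall o
    exact HasCompactSupport.of_support_subset_isCompact (isCompact_closedBall o (R + 2 * s * L))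
      (hl4_support_subset_closedBall hL ((subset_tsupport u).trans hR) hs)

/-! ### HL5 -/

theorem hl5_le {a b : X → ℝ} (h : ∀ x y, a x + b y ≤ dist x y ^ 2 / 2) (y : X) :
    b y ≤ hopfLax 1 (fun x => -a x) y := by
  refine Basic.hl_ge_of_forall_comp one_pos y fun z => ?_
  have := h z y
  linarith

theorem hl5_add_le {L : ℝ≥0} {a : X → ℝ} (ha : LipschitzWith L a) (x y : X) :
    a x + hopfLax 1 (fun x => -a x) y ≤ dist x y ^ 2 / 2 := by
  have := Basic.hl_le (u := fun x => -a x) ha.neg one_pos y x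
  linarith

/-! ### HL6 -/

theorem hl6_measurable_localSlope [MeasurableSpace X] [BorelSpace X] {f : X → ℝ} (hf : Continuous f) :
    Measurable (localSlope f) := Slope.hl_measurable_localSlope hf

theorem hl6_localSlope_le_of_lipschitz {L : ℝ≥0} {f : X → ℝ} (hf : LipschitzWith L f) (x : X) :
    localSlope f x ≤ L := Slope.hl_localSlope_le_of_lipschitz hf x

/-- joint Borel measurability of the slope of a jointly continuous family -/
theorem hl6_measurable_localSlope_param {T : Type*} [TopologicalSpace T] [MeasurableSpace T]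
    [MeasurableSpace X] [OpensMeasurableSpace (T × X)] {F : T → X → ℝ}
    (hF : Continuous (Function.uncurry F)) :
    Measurable (fun p : T × X => localSlope (F p.1) p.2) := Slope.hl_measurable_localSlope_param hF

end Claimed.Agent.R210.HL.Ifc
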